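import Mathlib

/-!
# The carrier of a glued algebra

`A` and `B` share one point (`z` is `b₀`).  Each gadget `t` adds a path `src t → dst t` of four
copies of `A`, running `z → E t`, `E t → z`, `z → E t`, `E t → z`.
-/

namespace Vale.Agent.P183.Glue

open scoped Classical

/-- The points of the carrier. -/
inductive Pt {A G : Type} (B : Type) (z : A) (E : G → A) : Type
  /-- A point of `B`. -/
  | base (b : B)
  /-- A point of `A` other than `z`. -/
  | side (a : A) (h : a ≠ z)
  /-- One of the three middle nodes of a path. -/
  | node (t : G) (k : Fin 3)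
  /-- A point of a copy of `A` on a path which is not a node. -/
  | inner (t : G) (i : Fin 4) (a : A) (hz : a ≠ z) (he : a ≠ E t)

namespace Pt

variable {A B G : Type} {z : A} {E : G → A}

instance [Finite A] [Finite B] [Finite G] : Finite (Pt B z E) :=
  Finite.of_injective
    (fun s : Pt B z E => match s with
      | base b => (Sum.inl b : B ⊕ A ⊕ (G × Fin 3) ⊕ (G × Fin 4 × A))
      | side a _ => Sum.inr (Sum.inl a)
      | node t k => Sum.inr (Sum.inr (Sum.inl (t, k)))
      | inner t i a _ _ => Sum.inr (Sum.inr (Sum.inr (t, i, a))))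
    (fun s s' h => by cases s <;> cases s' <;> simp_all)

/-- The embedding of `A`. -/
noncomputable def fromA (b₀ : B) (a : A) : Pt B z E :=
  if h : a = z then base b₀ else side a h

/-- The start node (image of `z`) of each copy. -/
def zNode (src dst : G → B) (t : G) : Fin 4 → Pt B z E :=
  ![base (src t), node t 1, node t 1, base (dst t)]

/-- The end node (image of `E t`) of each copy. -/
def eNode (t : G) : Fin 4 → Pt B z E := ![node t 0, node t 0, node t 2, node t 2]

/-- The copies of `A`. -/
noncomputable def copy (src dst : G → B) (t : G) (i : Fin 4) (a : A) : Pt B z E :=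
  if hz : a = z then zNode src dst t i
  else if he : a = E t then eNode t i else inner t i a hz he

/-- Data of a map out of the carrier, piece by piece. -/
structure Spec {A B G : Type} (z : A) (E : G → A) (b₀ : B) (src dst : G → B) (D : Type) where
  /-- The map on `A`. -/
  toA : A → D
  /-- The map on `B`. -/
  toB : B → D
  /-- The map on the copies. -/
  toG : G → Fin 4 → A → D
  h0 : toA z = toB b₀
  h1 : ∀ t, toG t 0 z = toB (src t)
  h2 : ∀ t, toG t 1 (E t) = toG t 0 (E t)
  h3 : ∀ t, toG t 2 z = toG t 1 z
  h4 : ∀ t, toG t 2 (E t) = toG t 3 (E t)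
  h5 : ∀ t, toG t 3 z = toB (dst t)

variable {b₀ : B} {src dst : G → B} {D : Type}

/-- The map given by the pieces. -/
def Spec.map (F : Spec z E b₀ src dst D) : Pt B z E → D
  | base b => F.toB b
  | side a _ => F.toA a
  | node t k => ![F.toG t 0 (E t), F.toG t 1 z, F.toG t 3 (E t)] k
  | inner t i a _ _ => F.toG t i a

theorem Spec.map_base (F : Spec z E b₀ src dst D) (b : B) : F.map (base b) = F.toB b := rfl

theorem Spec.map_fromA (F : Spec z E b₀ src dst D) (a : A) : F.map (fromA b₀ a) = F.toA a := by
  unfold fromA
  split_ifs with h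
  · subst h; exact F.h0.symm
  · rfl

theorem Spec.map_copy (F : Spec z E b₀ src dst D) (t : G) (i : Fin 4) (a : A) :
    F.map (copy src dst t i a) = F.toG t i a := by
  unfold copy
  split_ifs with hz he
  · subst hz
    fin_cases i <;> simp [zNode, Spec.map, F.h1, F.h3, F.h5]
  · subst he
    fin_cases i <;> simp [eNode, Spec.map, F.h2, F.h4]
  · rfl

/-- The generating pairs of the equivalence of `(x, y)`. -/
inductive Step (b₀ : B) (src dst : G → B) (x : Setoid A) (y : Setoid B) :
    Pt B z E → Pt B z E → Prop
  | inA {a a' : A} : x a a' → Step b₀ src dst x y (fromA b₀ a) (fromA b₀ a')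
  | inB {b b' : B} : y b b' → Step b₀ src dst x y (base b) (base b')
  | inG (t : G) (i : Fin 4) {a a' : A} : x a a' →
      Step b₀ src dst x y (copy src dst t i a) (copy src dst t i a')

/-- The equivalence generated by `x` on each copy of `A` and `y` on `B`. -/
def join (b₀ : B) (src dst : G → B) (x : Setoid A) (y : Setoid B) : Setoid (Pt B z E) :=
  Relation.EqvGen.setoid (Step b₀ src dst x y)

theorem join_inA {x : Setoid A} {y : Setoid B} {a a' : A} (h : x a a') :
    join (z := z) (E := E) b₀ src dst x y (fromA b₀ a) (fromA b₀ a') :=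
  Relation.EqvGen.rel _ _ (Step.inA h)

theorem join_inB {x : Setoid A} {y : Setoid B} {b b' : B} (h : y b b') :
    join (z := z) (E := E) b₀ src dst x y (base b) (base b') :=
  Relation.EqvGen.rel _ _ (Step.inB h)

theorem join_inG {x : Setoid A} {y : Setoid B} (t : G) (i : Fin 4) {a a' : A} (h : x a a') :
    join (z := z) (E := E) b₀ src dst x y (copy src dst t i a) (copy src dst t i a') :=
  Relation.EqvGen.rel _ _ (Step.inG t i h)

/-- To bound the joined equivalence it is enough to bound the generating pairs. -/
theorem join_le {x : Setoid A} {y : Setoid B} {σ : Setoid (Pt B z E)}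
    (hA : ∀ a a', x a a' → σ (fromA b₀ a) (fromA b₀ a'))
    (hB : ∀ b b', y b b' → σ (base b) (base b'))
    (hG : ∀ t i a a', x a a' → σ (copy src dst t i a) (copy src dst t i a')) :
    join b₀ src dst x y ≤ σ := by
  intro s s' h
  induction h with
  | rel s s' h =>
    cases h with
    | inA h => exact hA _ _ h
    | inB h => exact hB _ _ h
    | inG t i h => exact hG t i _ _ h
  | refl s => exact σ.refl' s
  | symm _ _ _ ih => exact σ.symm' ih
  | trans _ _ _ _ _ ih ih' => exact σ.trans' ih ih'

/-- A map respects the joined equivalence when each of its pieces does. -/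
theorem Spec.respects (F : Spec z E b₀ src dst D) {x : Setoid A} {y : Setoid B} {σ : Setoid D}
    (hA : ∀ a a', x a a' → σ (F.toA a) (F.toA a')) (hB : ∀ b b', y b b' → σ (F.toB b) (F.toB b'))
    (hG : ∀ t i a a', x a a' → σ (F.toG t i a) (F.toG t i a')) :
    ∀ s s', join b₀ src dst x y s s' → σ (F.map s) (F.map s') := by
  intro s s' h
  exact join_le (σ := Setoid.comap F.map σ)
    (fun a a' h => by rw [Setoid.comap_rel, F.map_fromA, F.map_fromA]; exact hA a a' h)
    (fun b b' h => hB b b' h)
    (fun t i a a' h => by rw [Setoid.comap_rel, F.map_copy, F.map_copy]; exact hG t i a a' h) h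

end Pt

end Vale.Agent.P183.Glue
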