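import Vale.Agent.P183.Glue.Ops

/-!
# The congruences of a glued algebra

Every equivalence invariant under the maps respecting the joined equivalences is one of them.
-/

namespace Vale.Agent.P183.Glue

open scoped Classical

namespace Setting

/-- Each copy on a path is kept by a folding which collapses any other given copy. -/
theorem foldPat_separate {A : Type} (z e : A) {i j : Fin 4} (h : i ≠ j) :
    ∃ p, (∀ a, foldPat z e p i a = a) ∧
      ((∀ a, foldPat z e p j a = z) ∨ ∀ a, foldPat z e p j a = e) := by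
  fin_cases i <;> fin_cases j <;> first
    | exact absurd rfl h
    | (refine ⟨0, ?_, ?_⟩ <;> simp [foldPat]; done)
    | (refine ⟨1, ?_, ?_⟩ <;> simp [foldPat]; done)
    | (refine ⟨2, ?_, ?_⟩ <;> simp [foldPat]; done)
    | (refine ⟨3, ?_, ?_⟩ <;> simp [foldPat]; done)


variable {ι κ β : Type*} {A B : Type} (D : Setting ι κ β A B)

/-- The points of `B` and the nodes of the paths. -/
def IsNode : D.C → Prop
  | .base _ => True
  | .node _ _ => True
  | _ => False

theorem fold_cp (t : D.Gad) (p i : Fin 4) (a : A) :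
    (D.fold t p).map (D.cp t i a) = foldPat D.z (D.E t) p i a := by
  rw [Pt.Spec.map_copy]
  simp [fold]

/-- Off its own gadget a folding is constant, and on the nodes it takes only `z` and `E`. -/
theorem fold_two (t : D.Gad) (p : Fin 4) (s : D.C)
    (hs : ∀ i a hz he, s ≠ Pt.inner t i a hz he) :
    (D.fold t p).map s = D.z ∨ (D.fold t p).map s = D.E t := by
  have hbase : foldBase D.z (D.E t) p = D.z ∨ foldBase D.z (D.E t) p = D.E t := by
    fin_cases p <;> simp [foldBase]
  cases s with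
  | base b => exact hbase
  | side a h => exact hbase
  | node t' k =>
    by_cases ht : t' = t
    · subst ht
      fin_cases p <;> fin_cases k <;> simp [Pt.Spec.map, fold, foldPat]
    · fin_cases k <;> simpa [Pt.Spec.map, fold, ht] using hbase
  | inner t' i a hz he =>
    have ht : t' ≠ t := fun e => by subst e; exact hs i a hz he rfl
    simpa [Pt.Spec.map, fold, ht] using hbase

/-- Nodes of a path are joined to its start when `z` and `E` are related. -/
theorem node_rel (p : D.Adm) (t : D.Gad) (h : D.Θ p.1.1 D.z (D.E t)) (k : Fin 3) :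
    D.T p (Pt.base (D.src t)) (Pt.node t k) := by
  have h0 : D.T p (D.cp t 0 D.z) (D.cp t 0 (D.E t)) := Pt.join_inG t 0 h
  have h1 : D.T p (D.cp t 1 (D.E t)) (D.cp t 1 D.z) :=
    Pt.join_inG t 1 ((D.Θ p.1.1).symm' h)
  have h2 : D.T p (D.cp t 2 D.z) (D.cp t 2 (D.E t)) := Pt.join_inG t 2 h
  rw [D.cp_start] at h0
  rw [(D.cp_mid t).1] at h1
  rw [(D.cp_mid t).2.1] at h2
  have e0 : D.cp t 0 (D.E t) = Pt.node t 0 := by simp [cp, Pt.copy, Pt.eNode, D.E_ne t]
  have e1 : D.cp t 1 D.z = Pt.node t 1 := by simp [cp, Pt.copy, Pt.zNode]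
  have e2 : D.cp t 2 (D.E t) = Pt.node t 2 := by simp [cp, Pt.copy, Pt.eNode, D.E_ne t]
  rw [e0] at h0 h1
  rw [e1] at h1 h2
  rw [e2] at h2
  fin_cases k
  · exact h0
  · exact (D.T p).trans' h0 h1
  · exact (D.T p).trans' ((D.T p).trans' h0 h1) h2

variable {D}

/-- An invariant equivalence whose traces on `A` and `B` are those of `p`. -/
structure Traced (θ : Setoid D.C) (p : D.Adm) : Prop where
  inv : ∀ F, D.Ok F → ∀ s s', θ s s' → θ (F s) (F s')
  onA : ∀ a a', D.Θ p.1.1 a a' ↔ θ (D.ιA a) (D.ιA a')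
  onB : ∀ b b', D.Ψ p.1.2 b b' ↔ θ (Pt.base b) (Pt.base b')

theorem Traced.okA {θ : Setoid D.C} {p : D.Adm} (hθ : Traced θ p) {F : D.C → A} (hF : D.OkA F)
    {s s' : D.C} (h : θ s s') : D.Θ p.1.1 (F s) (F s') :=
  (hθ.onA _ _).2 (hθ.inv _ (D.ok_ιA hF (f := id) fun _ _ _ h => h) s s' h)

theorem Traced.join_le {θ : Setoid D.C} {p : D.Adm} (hθ : Traced θ p) : D.T p ≤ θ :=
  Pt.join_le (fun a a' h => (hθ.onA a a').1 h) (fun b b' h => (hθ.onB b b').1 h)
    fun t i a a' h => by
      have := hθ.inv _ (D.ok_cp D.okA_retr t i) _ _ ((hθ.onA a a').1 h)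
      simp only [Pt.Spec.map_fromA] at this
      exact this

/-- A point is joined to a node unless all its partners lie on the same piece. -/
theorem Traced.to_node {θ : Setoid D.C} {p : D.Adm} (hθ : Traced θ p) {s s' : D.C}
    (h : θ s s') : D.T p s s' ∨ ∃ w, D.IsNode w ∧ D.T p s w := by
  cases s with
  | base b => exact .inr ⟨Pt.base b, trivial, (D.T p).refl' _⟩
  | node t k => exact .inr ⟨Pt.node t k, trivial, (D.T p).refl' _⟩
  | side a ha =>
    have hx := hθ.okA D.okA_retr h
    have hs : D.ιA a = Pt.side a ha := by simp [ιA, Pt.fromA, ha]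
    have h1 : D.retr.map (Pt.side a ha : D.C) = a := rfl
    rw [h1] at hx
    cases s' with
    | side a' ha' =>
      refine .inl ?_
      have hs' : D.ιA a' = Pt.side a' ha' := by simp [ιA, Pt.fromA, ha']
      rw [← hs, ← hs']
      exact Pt.join_inA hx
    | base b =>
      have hz : D.Θ p.1.1 a D.z := hx
      refine .inr ⟨D.ιA D.z, by simp [ιA, Pt.fromA, IsNode], ?_⟩
      rw [← hs]
      exact Pt.join_inA hz
    | node t k =>
      have hz : D.Θ p.1.1 a D.z := by fin_cases k <;> simpa [Pt.Spec.map, retr] using hx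
      refine .inr ⟨D.ιA D.z, by simp [ιA, Pt.fromA, IsNode], ?_⟩
      rw [← hs]
      exact Pt.join_inA hz
    | inner t i a' h1 h2 =>
      have hz : D.Θ p.1.1 a D.z := hx
      refine .inr ⟨D.ιA D.z, by simp [ιA, Pt.fromA, IsNode], ?_⟩
      rw [← hs]
      exact Pt.join_inA hz
  | inner t i a hz he =>
    have hs : D.cp t i a = Pt.inner t i a hz he := by simp [cp, Pt.copy, hz, he]
    by_cases hcase : ∃ a' h1 h2, s' = Pt.inner t i a' h1 h2
    · obtain ⟨a', h1, h2, rfl⟩ := hcase
      obtain ⟨q, hq, -⟩ := foldPat_separate D.z (D.E t) (show i ≠ i + 1 by fin_cases i <;> decide)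
      have hs' : D.cp t i a' = Pt.inner t i a' h1 h2 := by simp [cp, Pt.copy, h1, h2]
      have hx := hθ.okA (D.okA_fold t q) h
      rw [← hs, ← hs', fold_cp, fold_cp, hq, hq] at hx
      refine .inl ?_
      rw [← hs, ← hs']
      exact Pt.join_inG t i hx
    · -- a folding keeps `i` and sends `s'` to `z` or `E t`
      obtain ⟨q, hq, hval⟩ : ∃ q, (∀ a, foldPat D.z (D.E t) q i a = a) ∧
          ((D.fold t q).map s' = D.z ∨ (D.fold t q).map s' = D.E t) := by
        by_cases hin : ∃ j a' h1 h2, s' = Pt.inner t j a' h1 h2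
        · obtain ⟨j, a', h1, h2, rfl⟩ := hin
          obtain ⟨q, hq, hj⟩ := foldPat_separate D.z (D.E t)
            (fun e : i = j => hcase ⟨a', h1, h2, by rw [e]⟩)
          refine ⟨q, hq, ?_⟩
          simp only [Pt.Spec.map, fold, if_true]
          exact hj.imp (fun f => f a') fun f => f a'
        · obtain ⟨q, hq, -⟩ := foldPat_separate D.z (D.E t)
            (show i ≠ i + 1 by fin_cases i <;> decide)
          exact ⟨q, hq, D.fold_two t q s' fun j a' h1 h2 e => hin ⟨j, a', h1, h2, e⟩⟩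
      have hx := hθ.okA (D.okA_fold t q) h
      rw [← hs, fold_cp, hq] at hx
      rcases hval with e | e <;> rw [e] at hx
      · refine .inr ⟨D.cp t i D.z, ?_, ?_⟩
        · fin_cases i <;> simp [cp, Pt.copy, Pt.zNode, IsNode]
        · rw [← hs]; exact Pt.join_inG t i hx
      · refine .inr ⟨D.cp t i (D.E t), ?_, ?_⟩
        · fin_cases i <;> simp [cp, Pt.copy, Pt.eNode, IsNode, D.E_ne t]
        · rw [← hs]; exact Pt.join_inG t i hx

/-- Related nodes are joined. -/
theorem Traced.node_node {θ : Setoid D.C} {p : D.Adm} (hθ : Traced θ p) {s s' : D.C}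
    (h : θ s s') (hs : D.IsNode s) (hs' : D.IsNode s') : D.T p s s' := by
  -- replace a node of a collapsed path by its start
  have red : ∀ w, D.IsNode w → ∃ w', D.T p w w' ∧ ((∃ b, w' = Pt.base b) ∨
      ∃ t k, w' = Pt.node t k ∧ ¬ D.Θ p.1.1 D.z (D.E t)) := by
    intro w hw
    cases w with
    | base b => exact ⟨_, (D.T p).refl' _, .inl ⟨b, rfl⟩⟩
    | node t k =>
      by_cases hc : D.Θ p.1.1 D.z (D.E t)
      · exact ⟨_, (D.T p).symm' (D.node_rel p t hc k), .inl ⟨_, rfl⟩⟩
      · exact ⟨_, (D.T p).refl' _, .inr ⟨t, k, rfl, hc⟩⟩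
    | side a h => exact hw.elim
    | inner t i a h1 h2 => exact hw.elim
  -- a folding sees an uncollapsed node
  have sep : ∀ t k w, ¬ D.Θ p.1.1 D.z (D.E t) → θ (Pt.node t k) w →
      ((∃ b, w = Pt.base b) ∨ ∃ t' k', w = Pt.node t' k') → w = Pt.node t k := by
    intro t k w hc hw hwn
    have h3 := hθ.okA (D.okA_fold t 3) hw
    have h2 := hθ.okA (D.okA_fold t 2) hw
    have h0 := hθ.okA (D.okA_fold t 0) hw
    have hc' : ¬ D.Θ p.1.1 (D.E t) D.z := fun e => hc ((D.Θ p.1.1).symm' e)
    rcases hwn with ⟨b, rfl⟩ | ⟨t', k', rfl⟩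
    · fin_cases k <;> simp [Pt.Spec.map, fold, foldPat, foldBase] at h3 <;> exact absurd h3 hc'
    · by_cases ht : t' = t
      · subst ht
        fin_cases k <;> fin_cases k' <;> simp [Pt.Spec.map, fold, foldPat, foldBase] at h0 h2 ⊢ <;>
          first | exact hc h0 | exact hc' h0 | exact hc h2 | exact hc' h2
      · fin_cases k <;> fin_cases k' <;>
          simp [Pt.Spec.map, fold, foldPat, foldBase, ht] at h3 <;> exact absurd h3 hc'
  obtain ⟨w, hw, hwk⟩ := red s hs
  obtain ⟨w', hw', hwk'⟩ := red s' hs'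
  have hww : θ w w' := θ.trans' (θ.symm' (hθ.join_le hw)) (θ.trans' h (hθ.join_le hw'))
  suffices D.T p w w' from (D.T p).trans' hw ((D.T p).trans' this ((D.T p).symm' hw'))
  rcases hwk with ⟨b, rfl⟩ | ⟨t, k, rfl, hc⟩
  · rcases hwk' with ⟨b', rfl⟩ | ⟨t', k', rfl, hc'⟩
    · exact Pt.join_inB ((hθ.onB b b').2 hww)
    · exact absurd (sep t' k' _ hc' (θ.symm' hww) (.inl ⟨b, rfl⟩)) (by simp)
  · rw [sep t k w' hc hww (hwk'.imp id fun ⟨t', k', e, _⟩ => ⟨t', k', e⟩)]

theorem Traced.eq_join {θ : Setoid D.C} {p : D.Adm} (hθ : Traced θ p) : D.T p = θ := by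
  refine le_antisymm hθ.join_le fun {s s'} h => ?_
  rcases hθ.to_node h with h1 | ⟨w, hw, hsw⟩
  · exact h1
  · rcases hθ.to_node (θ.symm' h) with h1 | ⟨w', hw', hsw'⟩
    · exact (D.T p).symm' h1
    · exact (D.T p).trans' hsw ((D.T p).trans'
        (hθ.node_node (θ.trans' (θ.symm' (hθ.join_le hsw)) (θ.trans' h (hθ.join_le hsw'))) hw hw')
        ((D.T p).symm' hsw'))

end Setting

end Vale.Agent.P183.Glue
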