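import Vale.Agent.P183.Closure

/-!
# Closed families of equivalences

A congruence lattice is the same thing as a family `Θ` of equivalences on a finite set which
contains every equivalence invariant under all the maps preserving every member.  A matrix power
makes each member principal, generated by a pair with a fixed first entry.
-/

namespace Vale.Agent.P183.Glue

open scoped Classical

/-- The maps preserving every member of a family of equivalences. -/
def Preserves {ι A : Type*} (Θ : ι → Setoid A) (f : A → A) : Prop :=
  ∀ i a b, Θ i a b → Θ i (f a) (f b)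

/-- `Θ` carries `R` to inclusion and is the set of all equivalences invariant under the maps
preserving it. -/
structure IsClosedFamily {ι A : Type*} (R : ι → ι → Prop) (Θ : ι → Setoid A) : Prop where
  le_iff : ∀ i j, R i j ↔ Θ i ≤ Θ j
  inj : Function.Injective Θ
  closed : ∀ θ : Setoid A, (∀ f, Preserves Θ f → ∀ a b, θ a b → θ (f a) (f b)) → ∃ i, Θ i = θ

/-- A closed family on a finite nonempty set gives a congruence lattice. -/
theorem IsClosedFamily.isConLattice {ι : Type*} {A : Type} [Nonempty A] [Finite A]
    {R : ι → ι → Prop} {Θ : ι → Setoid A} (h : IsClosedFamily R Θ) : IsConLattice R := by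
  let K := {f : A → A // Preserves Θ f}
  let ar : K → ℕ := fun _ => 1
  let op : ∀ k : K, (Fin (ar k) → A) → A := fun k u => k.1 (u (0 : Fin 1))
  let P := {θ : Setoid A // ∀ (k : K) a b, (∀ l, θ (a l) (b l)) → θ (op k a) (op k b)}
  let F : ι → P := fun i => ⟨Θ i, fun k a b hab => k.2 i _ _ (hab (0 : Fin 1))⟩
  have hF : Function.Bijective F := by
    refine ⟨fun i j e => h.inj (congrArg Subtype.val e), fun θ => ?_⟩
    obtain ⟨i, hi⟩ := h.closed θ.1 fun f hf a b hab =>
      θ.2 ⟨f, hf⟩ (fun _ => a) (fun _ => b) fun _ => hab
    exact ⟨i, Subtype.ext hi⟩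
  exact IsConLattice.of_ops ar op (Equiv.ofBijective F hF) fun i j => h.le_iff i j

/-- An equivalence invariant under changing one coordinate relates pointwise related tuples. -/
theorem rel_of_coord {A B : Type*} [Finite A] [DecidableEq A] (θ : Setoid (A → B)) (P : A → B → B → Prop)
    (h : ∀ n (u : A → B) (p q : B), P n p q → θ (Function.update u n p) (Function.update u n q))
    {v w : A → B} (hvw : ∀ n, P n (v n) (w n)) : θ v w := by
  have := Fintype.ofFinite A
  have key : ∀ s : Finset A, θ v (s.piecewise w v) := by
    intro s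
    induction s using Finset.induction_on with
    | empty => simp
    | @insert n s hn ih =>
      refine θ.trans' ih ?_
      have h1 := h n (s.piecewise w v) (v n) (w n) (hvw n)
      have e1 : Function.update (s.piecewise w v) n (v n) = s.piecewise w v := by
        conv_lhs => rw [← Finset.piecewise_eq_of_notMem s w v hn]
        exact Function.update_eq_self _ _
      rw [e1, ← Finset.piecewise_insert] at h1
      exact h1
  simpa using key Finset.univ

/-- Every congruence lattice is a closed family. -/
theorem exists_closedFamily {ι : Type*} {R : ι → ι → Prop} (h : IsConLattice R) :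
    ∃ (A : Type) (_ : Nonempty A) (_ : Finite A) (Θ : ι → Setoid A), IsClosedFamily R Θ := by
  obtain ⟨A, hne, hfin, m, ar, op, e, he⟩ := h
  refine ⟨A, hne, hfin, fun i => (e i).1, he, fun i j hij => e.injective (Subtype.ext hij),
    fun θ hθ => ?_⟩
  have hop : ∀ k a b, (∀ l, θ (a l) (b l)) → θ (op k a) (op k b) := fun k a b hab =>
    Setoid.comap_rel (op k) θ a b |>.1 <|
    rel_of_coord (Setoid.comap (op k) θ) (fun _ p q => θ p q) (fun n u p q hpq => by
      rw [Setoid.comap_rel]
      refine hθ (fun x => op k (Function.update u n x)) (fun i a b hab => ?_) p q hpq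
      refine (e i).2 k _ _ fun l => ?_
      rcases eq_or_ne l n with rfl | hl
      · simpa using hab
      · simp [Function.update_of_ne hl]) hab
  exact ⟨e.symm ⟨θ, hop⟩, by simp⟩

/-- A closed family in which each member `Θ i` is generated by the pair `(z, g i)`, with maps
fixing `z` and sending `g i` to `g j` whenever `j` lies below `i`. -/
structure IsPointed {ι A : Type*} (R : ι → ι → Prop) (Θ : ι → Setoid A) (z : A) (g : ι → A) :
    Prop extends IsClosedFamily R Θ where
  gen : ∀ i j, Θ j z (g i) ↔ R i j
  move : ∀ i j, R j i → ∃ f, Preserves Θ f ∧ f z = z ∧ f (g i) = g j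

/-- Every congruence lattice has a pointed closed family: take the power indexed by all pairs. -/
theorem exists_pointed {ι : Type*} {R : ι → ι → Prop} (h : IsConLattice R) :
    ∃ (A : Type) (_ : Finite A) (Θ : ι → Setoid A) (z : A) (g : ι → A),
      IsPointed R Θ z g := by
  obtain ⟨A, ⟨a₀⟩, hfin, Θ, hΘ⟩ := exists_closedFamily h
  let N := A × A
  let Θ' : ι → Setoid (N → A) := fun i =>
    { r := fun v w => ∀ n, Θ i (v n) (w n)
      iseqv := ⟨fun v n => (Θ i).refl' _, fun h n => (Θ i).symm' (h n),
        fun h h' n => (Θ i).trans' (h n) (h' n)⟩ }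
  have hconst : ∀ i a b, Θ i a b → Θ' i (fun _ => a) (fun _ => b) := fun i a b hab _ => hab
  have hle : ∀ i j, R i j ↔ Θ' i ≤ Θ' j := by
    intro i j
    rw [hΘ.le_iff]
    exact ⟨fun hij {v w} hvw n => hij (hvw n),
      fun hij {a b} hab => hij (hconst i a b hab) (a₀, a₀)⟩
  let z : N → A := fun n => n.1
  let g : ι → N → A := fun i n => if Θ i n.1 n.2 then n.2 else n.1
  have hgen : ∀ i j, Θ' j z (g i) ↔ R i j := by
    intro i j
    rw [hΘ.le_iff]
    constructor
    · intro hij a b hab
      simpa [z, g, hab] using hij (a, b)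
    · intro hij n
      simp only [z, g]
      split_ifs with hn
      · exact hij hn
      · exact (Θ j).refl' _
  refine ⟨N → A, inferInstance, Θ', z, g, ⟨hle, fun i j hij => hΘ.inj (Setoid.ext fun a b =>
    ⟨fun hab => (Setoid.ext_iff.1 hij _ _).1 (hconst i a b hab) (a₀, a₀),
      fun hab => (Setoid.ext_iff.1 hij _ _).2 (hconst j a b hab) (a₀, a₀)⟩), fun θ hθ => ?_⟩,
    hgen, fun i j hji => ?_⟩
  · obtain ⟨i, hi⟩ := hΘ.closed (Setoid.comap (fun a _ => a) θ) fun f hf a b hab =>
      hθ (fun v n => f (v n)) (fun i v w hvw n => hf i _ _ (hvw n)) _ _ hab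
    have hi' : ∀ a b, Θ i a b ↔ θ (fun _ => a) (fun _ => b) := fun a b => by
      rw [hi]; rfl
    refine ⟨i, Setoid.ext fun v w => ⟨fun hvw => ?_, fun hvw n => ?_⟩⟩
    · refine rel_of_coord θ (fun _ p q => Θ i p q) (fun n u p q hpq => ?_) hvw
      have := hθ (fun x => Function.update u n (x n)) (fun j v w hvw l => by
        rcases eq_or_ne l n with rfl | hl
        · simpa using hvw l
        · simp [Function.update_of_ne hl]) _ _ ((hi' p q).1 hpq)
      exact this
    · exact (hi' _ _).2 (hθ (fun x _ => x n) (fun j v w hvw _ => hvw n) _ _ hvw)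
  · refine ⟨fun v n => if Θ j n.1 n.2 then v n else n.1, fun l v w hvw n => ?_, ?_, ?_⟩
    · dsimp only
      split_ifs
      · exact hvw n
      · exact (Θ l).refl' _
    · funext n; simp [z]
    · funext n
      simp only [g]
      by_cases hn : Θ j n.1 n.2
      · simp [hn, (hΘ.le_iff j i).1 hji hn]
      · simp [hn]

end Vale.Agent.P183.Glue
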