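import Vale.Agent.P183.Glue.Family

/-!
# The order of a glued lattice

`φ` forces the second coordinate from the first; each item `b t` of the second lattice forces
`q t` in the first.
-/

namespace Vale.Agent.P183.Glue

/-- The pairs `(x, y)` with `φ x ≤ y` in which `b t ≤ y` forces `q t ≤ x`. -/
abbrev Pairs {ι κ β : Type*} (R : ι → ι → Prop) (S : κ → κ → Prop) (φ : ι → κ) (b : β → κ)
    (q : β → ι) :=
  {p : ι × κ // S (φ p.1) p.2 ∧ ∀ t, S (b t) p.2 → R (q t) p.1}

/-- The componentwise order of the glued pairs. -/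
def PairsLe {ι κ β : Type*} (R : ι → ι → Prop) (S : κ → κ → Prop) (φ : ι → κ) (b : β → κ)
    (q : β → ι) (p p' : Pairs R S φ b q) : Prop :=
  R p.1.1 p'.1.1 ∧ S p.1.2 p'.1.2

end Vale.Agent.P183.Glue
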