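import Vale.Agent.P183.Glue.Classify
import Vale.Agent.P183.Glue.Interface
import Vale.Agent.P183.CatalystHorn

/-!
# Gluing congruence lattices

If `Q` and `B` are congruence lattices of finite algebras and `φ : Q → B` is monotone, so are the
pairs `(x, y)` with `φ x ≤ y`, also when `y ≰ m t` is made to force `q t ≤ x` for some `t`
(compatibly with `φ`).
-/

namespace Vale.Agent.P183.Glue

open scoped Classical

namespace Setting

variable {ι κ β : Type*} {A B : Type} (D : Setting ι κ β A B)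

/-- Maps `F : C → C` are applied to the points of `A`. -/
theorem trace_A {p : D.Adm} {a a' : A} (h : D.T p (D.ιA a) (D.ιA a')) : D.Θ p.1.1 a a' := by
  have := D.okA_retr p _ _ h
  simpa [Pt.Spec.map_fromA, retr] using this

/-- The second coordinate is seen after collapsing each path onto its two ends. -/
theorem trace_B {p : D.Adm} {b b' : B} (h : D.T p (Pt.base b) (Pt.base b')) :
    D.Ψ p.1.2 b b' := by
  let y := D.Ψ p.1.2
  let x := D.Θ p.1.1
  let mk : B → Quotient y := Quotient.mk y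
  let F : D.Sp (Quotient y) :=
    { toA := fun _ => mk D.b₀
      toB := mk
      toG := fun t i a => if x D.z (D.E t) then mk (D.src t)
        else ![if x D.z a then mk (D.src t) else mk (D.dst t), mk (D.dst t), mk (D.dst t),
          mk (D.dst t)] i
      h0 := rfl
      h1 := fun t => by have := x.refl' D.z; split_ifs <;> simp
      h2 := fun t => by split_ifs <;> simp_all
      h3 := fun t => by split_ifs <;> simp
      h4 := fun t => by split_ifs <;> simp
      h5 := fun t => by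
        split_ifs with hc hzz
        · obtain ⟨c, hc', -, hΨ⟩ := t.2
          have hR : D.R c p.1.1 := (D.hA.gen c p.1.1).1 (by rw [hc']; exact hc)
          have h1 := (D.hB.le_iff _ _).1 (D.hφ _ _ hR) hΨ
          exact Quotient.sound ((D.hB.le_iff _ _).1 p.2.1 h1)
        · rfl
        · exact absurd (x.refl' D.z) hzz }
  have hbot : ∀ u : Quotient y, (⊥ : Setoid (Quotient y)) u u := fun u => Setoid.refl' _ u
  have := F.respects (x := x) (y := y) (σ := ⊥) (fun _ _ _ => hbot _)
    (fun b b' h => by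
      show mk b = mk b'
      exact Quotient.sound h)
    (fun t i a a' haa => by
      show (if x D.z (D.E t) then _ else _) = (if x D.z (D.E t) then _ else _)
      have : x D.z a ↔ x D.z a' :=
        ⟨fun h => x.trans' h haa, fun h => x.trans' h (x.symm' haa)⟩
      simp only [this]) _ _ h
  exact Quotient.exact (show mk b = mk b' from this)

/-- The joined equivalences form a closed family. -/
theorem isClosedFamily :
    IsClosedFamily (fun p p' : D.Adm => D.R p.1.1 p'.1.1 ∧ D.S p.1.2 p'.1.2) D.T := by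
  have hle : ∀ p p' : D.Adm, (D.R p.1.1 p'.1.1 ∧ D.S p.1.2 p'.1.2) ↔ D.T p ≤ D.T p' := by
    intro p p'
    rw [D.hA.le_iff, D.hB.le_iff]
    refine ⟨fun h => Pt.join_le (fun a a' ha => Pt.join_inA (h.1 ha))
      (fun b b' hb => Pt.join_inB (h.2 hb)) (fun t i a a' ha => Pt.join_inG t i (h.1 ha)),
      fun h => ⟨fun {a a'} ha => D.trace_A (h (Pt.join_inA ha)),
        fun {b b'} hb => D.trace_B (h (Pt.join_inB hb))⟩⟩
  refine ⟨hle, fun p p' e => ?_, fun θ hθ => ?_⟩
  · have h1 := (hle p p').2 e.le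
    have h2 := (hle p' p).2 e.ge
    exact Subtype.ext (Prod.ext
      (D.hA.inj (le_antisymm ((D.hA.le_iff _ _).1 h1.1) ((D.hA.le_iff _ _).1 h2.1)))
      (D.hB.inj (le_antisymm ((D.hB.le_iff _ _).1 h1.2) ((D.hB.le_iff _ _).1 h2.2))))
  -- the traces of an invariant equivalence
  obtain ⟨x, hx⟩ := D.hA.closed (Setoid.comap D.ιA θ) fun f hf a a' h => by
    have := hθ _ (D.ok_ιA D.okA_retr hf) _ _ h
    rw [Setoid.comap_rel]
    simpa [Pt.Spec.map_fromA, retr] using this
  obtain ⟨y, hy⟩ := D.hB.closed (Setoid.comap Pt.base θ) fun f hf b b' h => by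
    exact hθ _ (D.ok_opB f hf) _ _ h
  have onA : ∀ a a', D.Θ x a a' ↔ θ (D.ιA a) (D.ιA a') := fun a a' => by rw [hx]; rfl
  have onB : ∀ b b', D.Ψ y b b' ↔ θ (Pt.base b) (Pt.base b') := fun b b' => by rw [hy]; rfl
  have hcopy : ∀ (t : D.Gad) i a a', D.Θ x a a' → θ (D.cp t i a) (D.cp t i a') :=
    fun t i a a' h => by
      have := hθ _ (D.ok_cp D.okA_retr t i) _ _ ((onA a a').1 h)
      simpa [Pt.Spec.map_fromA, retr] using this
  have hφy : D.S (D.φ x) y := by
    rw [D.hB.le_iff]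
    intro u v huv
    rcases eq_or_ne u v with rfl | hne
    · exact (D.Ψ y).refl' _
    · let t : D.Gad := ⟨(D.g x, u, v), x, rfl, hne, huv⟩
      have hz : D.Θ x D.z (D.E t) := (D.hA.gen x x).2 ((D.hA.le_iff x x).2 le_rfl)
      refine (onB u v).2 ?_
      have h0 := hcopy t 0 _ _ hz
      have h1 := hcopy t 1 _ _ ((D.Θ x).symm' hz)
      have h2 := hcopy t 2 _ _ hz
      have h3 := hcopy t 3 _ _ ((D.Θ x).symm' hz)
      rw [D.cp_start] at h0
      rw [(D.cp_mid t).1] at h1
      rw [(D.cp_mid t).2.1, (D.cp_mid t).2.2] at h2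
      rw [D.cp_stop] at h3
      exact θ.trans' (θ.trans' h0 h1) (θ.trans' h2 h3)
  have hcut : ∀ t, ¬ D.S y (D.m t) → D.R (D.q t) x := by
    intro t ht
    rw [D.hB.le_iff, Setoid.le_def] at ht
    simp only [not_forall] at ht
    obtain ⟨u, v, huv, hnuv⟩ := ht
    have h := hθ _ (D.ok_ιA (D.okA_kill t u) (f := id) fun _ _ _ h => h) _ _ ((onB u v).1 huv)
    have hu : (D.kill t u).map (Pt.base u) = D.z := by
      show D.cut t u u = D.z
      simp [cut]
    have hv : (D.kill t u).map (Pt.base v) = D.g (D.q t) := by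
      show D.cut t u v = _
      simp [cut, hnuv]
    rw [hu, hv] at h
    exact (D.hA.gen _ _).1 ((onA _ _).2 h)
  exact ⟨⟨(x, y), hφy, hcut⟩, Traced.eq_join ⟨fun F hF => hθ F hF, onA, onB⟩⟩

end Setting

/-- Gluing, with `y ≰ m t` forcing `q t ≤ x`. -/
theorem glue_cut {ι κ β : Type*} {R : ι → ι → Prop} {S : κ → κ → Prop} (hR : IsConLattice R)
    (hS : IsConLattice S) (φ : ι → κ) (hφ : ∀ i j, R i j → S (φ i) (φ j)) (m : β → κ)
    (q : β → ι) (hq : ∀ t i, ¬ S (φ i) (m t) → R (q t) i) :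
    IsConLattice (fun p p' : {p : ι × κ // S (φ p.1) p.2 ∧ ∀ t, ¬ S p.2 (m t) → R (q t) p.1} =>
      R p.1.1 p'.1.1 ∧ S p.1.2 p'.1.2) := by
  obtain ⟨A, _, Θ, z, g, hA⟩ := exists_pointed hR
  -- the least element, and the filter above its image
  obtain ⟨c₀, hc₀⟩ := hA.closed ⊥ fun f _ a b h => congrArg f h
  have hmin : ∀ i, R c₀ i := fun i => (hA.le_iff _ _).2 (hc₀ ▸ bot_le)
  have hS' := principal_filter hS (φ c₀)
  obtain ⟨B, ⟨b₀⟩, _, Ψ, hB⟩ := exists_closedFamily hS'
  obtain ⟨k₀, hk₀⟩ := hB.closed ⊥ fun f _ a b h => congrArg f h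
  have strans : ∀ {a b c}, S a b → S b c → S a c := fun {a b c} h h' => by
    obtain ⟨_, _, _, _, _, _, e, he⟩ := hS
    rw [he] at h h' ⊢
    exact le_trans h h'
  have srefl : ∀ a, S a a := fun a => by
    obtain ⟨_, _, _, _, _, _, e, he⟩ := hS
    rw [he]
  have rtrans : ∀ {a b c}, R a b → R b c → R a c := fun {a b c} h h' => by
    rw [hA.le_iff] at h h' ⊢
    exact le_trans h h'
  let φ' : ι → {k // S (φ c₀) k} := fun i => ⟨φ i, hφ _ _ (hmin i)⟩
  let D : Setting ι {k // S (φ c₀) k} {t : β // S (φ c₀) (m t)} A B :=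
    { R := R
      S := fun i j => S i.1 j.1
      Θ := Θ
      z := z
      g := g
      Ψ := Ψ
      b₀ := b₀
      φ := φ'
      m := fun t => ⟨m t.1, t.2⟩
      q := fun t => q t.1
      hA := hA
      hB := hB
      hφ := fun i j h => hφ i j h
      hq := fun t i h => hq t.1 i h
      hbot := fun c u v hc huv => by
        have hR : R c c₀ := (hA.gen c c₀).1 (by rw [hc])
        have h1 : Ψ (φ' c) ≤ Ψ (φ' c₀) := (hB.le_iff _ _).1 (hφ _ _ hR)
        have h2 : Ψ (φ' c₀) ≤ Ψ k₀ := (hB.le_iff _ _).1 k₀.2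
        have := h2 (h1 huv)
        rw [hk₀] at this
        exact this }
  let full := {p : ι × κ // S (φ p.1) p.2 ∧ ∀ t, ¬ S p.2 (m t) → R (q t) p.1}
  let e : full ≃ D.Adm :=
    { toFun := fun p => ⟨(p.1.1, ⟨p.1.2, strans (hφ _ _ (hmin _)) p.2.1⟩), p.2.1,
        fun t h => p.2.2 t.1 h⟩
      invFun := fun p => ⟨(p.1.1, p.1.2.1), p.2.1, fun t h => by
        by_cases ht : S (φ c₀) (m t)
        · exact p.2.2 ⟨t, ht⟩ h
        · exact rtrans (hq t c₀ ht) (hmin _)⟩
      left_inv := fun p => rfl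
      right_inv := fun p => rfl }
  have : Nonempty D.C := ⟨Pt.base b₀⟩
  exact D.isClosedFamily.isConLattice.congr e fun p p' => Iff.rfl

/-- Gluing along `φ`, with join-prime items `b t` forcing `q t`. -/
theorem glue {ι κ β : Type*} {R : ι → ι → Prop} {S : κ → κ → Prop} (hR : IsConLattice R)
    (hS : IsConLattice S) (φ : ι → κ) (hφ : ∀ i j, R i j → S (φ i) (φ j)) (b m : β → κ)
    (q : β → ι) (hb : ∀ t y, ¬ S (b t) y ↔ S y (m t)) (hq : ∀ t i, S (b t) (φ i) → R (q t) i) :
    IsConLattice (PairsLe R S φ b q) := by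
  have hb' : ∀ t y, ¬ S y (m t) ↔ S (b t) y := fun t y => by rw [← hb t y, not_not]
  refine (glue_cut hR hS φ hφ m q fun t i h => hq t i ((hb' t _).1 h)).congr
    (Equiv.subtypeEquivRight (fun p => ?_)) fun p p' => ?_
  · exact and_congr_right fun _ => forall_congr' fun t => by rw [hb']
  · exact Iff.rfl

end Vale.Agent.P183.Glue
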