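import Vale.Agent.P183.Glue.Family
import Vale.Agent.P183.Glue.Carrier

/-!
# The maps of a glued algebra

`Θ` is a pointed closed family on `A` and `Ψ` a family on `B`.  A gadget is a triple
`(g c, u, v)` with `u ≠ v` related by `Ψ (φ c)`.  A pair `(x, y)` is admissible when `φ x ≤ y`
and, for every `t`, `y ≰ m t` forces `q t ≤ x`.
-/

namespace Vale.Agent.P183.Glue

open scoped Classical

/-- The data of a gluing. -/
structure Setting (ι κ β : Type*) (A B : Type) where
  /-- The order of the first lattice. -/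
  R : ι → ι → Prop
  /-- The order of the second lattice. -/
  S : κ → κ → Prop
  /-- The first family. -/
  Θ : ι → Setoid A
  /-- Its base point. -/
  z : A
  /-- Its generators. -/
  g : ι → A
  /-- The second family. -/
  Ψ : κ → Setoid B
  /-- The point of `B` identified with `z`. -/
  b₀ : B
  /-- What the first coordinate forces in the second. -/
  φ : ι → κ
  /-- Outside `m t` the second coordinate forces `q t` in the first. -/
  m : β → κ
  /-- The forced elements. -/
  q : β → ι
  hA : IsPointed R Θ z g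
  hB : IsClosedFamily S Ψ
  hφ : ∀ i j, R i j → S (φ i) (φ j)
  hq : ∀ t i, ¬ S (φ i) (m t) → R (q t) i
  hbot : ∀ c u v, g c = z → Ψ (φ c) u v → u = v

namespace Setting

variable {ι κ β : Type*} {A B : Type} (D : Setting ι κ β A B)

/-- The admissible pairs. -/
abbrev Adm := {p : ι × κ // D.S (D.φ p.1) p.2 ∧ ∀ t, ¬ D.S p.2 (D.m t) → D.R (D.q t) p.1}

/-- The gadgets. -/
abbrev Gad := {t : A × B × B // ∃ c, D.g c = t.1 ∧ t.2.1 ≠ t.2.2 ∧ D.Ψ (D.φ c) t.2.1 t.2.2}

/-- The end point of a gadget in `A`. -/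
abbrev E (t : D.Gad) : A := t.1.1

/-- The first end of a gadget in `B`. -/
abbrev src (t : D.Gad) : B := t.1.2.1

/-- The second end of a gadget in `B`. -/
abbrev dst (t : D.Gad) : B := t.1.2.2

theorem E_ne (t : D.Gad) : D.E t ≠ D.z := by
  obtain ⟨t, c, hc, hne, hΨ⟩ := t
  exact fun h => hne (D.hbot c _ _ (hc.trans h) hΨ)

/-- The carrier. -/
abbrev C := Pt B D.z D.E

/-- Specifications of maps out of the carrier. -/
abbrev Sp (X : Type) := Pt.Spec D.z D.E D.b₀ D.src D.dst X

/-- The equivalence of an admissible pair. -/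
noncomputable def T (p : D.Adm) : Setoid D.C :=
  Pt.join D.b₀ D.src D.dst (D.Θ p.1.1) (D.Ψ p.1.2)

/-- The embedding of `A`. -/
noncomputable abbrev ιA (a : A) : D.C := Pt.fromA D.b₀ a

/-- The copies of `A`. -/
noncomputable abbrev cp (t : D.Gad) (i : Fin 4) (a : A) : D.C := Pt.copy D.src D.dst t i a

theorem cp_start (t : D.Gad) : D.cp t 0 D.z = Pt.base (D.src t) := by
  simp [cp, Pt.copy, Pt.zNode]

theorem cp_stop (t : D.Gad) : D.cp t 3 D.z = Pt.base (D.dst t) := by
  simp [cp, Pt.copy, Pt.zNode]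

theorem cp_mid (t : D.Gad) :
    D.cp t 1 (D.E t) = D.cp t 0 (D.E t) ∧ D.cp t 2 D.z = D.cp t 1 D.z ∧
      D.cp t 2 (D.E t) = D.cp t 3 (D.E t) := by
  simp [cp, Pt.copy, Pt.zNode, Pt.eNode, D.E_ne t]

/-- A map respecting every joined equivalence. -/
def Ok (F : D.C → D.C) : Prop := Preserves D.T F

/-- A map into `A` respecting every first coordinate. -/
def OkA (F : D.C → A) : Prop :=
  ∀ p : D.Adm, ∀ s s', D.T p s s' → D.Θ p.1.1 (F s) (F s')

theorem okA_of_spec (F : D.Sp A)
    (hA : ∀ (p : D.Adm) a a', D.Θ p.1.1 a a' → D.Θ p.1.1 (F.toA a) (F.toA a'))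
    (hB : ∀ (p : D.Adm) b b', D.Ψ p.1.2 b b' → D.Θ p.1.1 (F.toB b) (F.toB b'))
    (hG : ∀ (p : D.Adm) t i a a', D.Θ p.1.1 a a' → D.Θ p.1.1 (F.toG t i a) (F.toG t i a')) :
    D.OkA F.map := fun p => F.respects (hA p) (hB p) (hG p)

theorem ok_ιA {F : D.C → A} (hF : D.OkA F) {f : A → A} (hf : Preserves D.Θ f) :
    D.Ok fun s => D.ιA (f (F s)) :=
  fun p _ _ h => Pt.join_inA (hf _ _ _ (hF p _ _ h))

theorem ok_cp {F : D.C → A} (hF : D.OkA F) (t : D.Gad) (i : Fin 4) :
    D.Ok fun s => D.cp t i (F s) :=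
  fun p _ _ h => Pt.join_inG t i (hF p _ _ h)

/-- The retraction onto `A`. -/
def retr : D.Sp A where
  toA a := a
  toB _ := D.z
  toG _ _ _ := D.z
  h0 := rfl
  h1 _ := rfl
  h2 _ := rfl
  h3 _ := rfl
  h4 _ := rfl
  h5 _ := rfl

theorem okA_retr : D.OkA D.retr.map :=
  D.okA_of_spec D.retr (fun _ _ _ h => h) (fun p _ _ _ => (D.Θ p.1.1).refl' _)
    (fun p _ _ _ _ _ => (D.Θ p.1.1).refl' _)

/-- The common value of a folding off its gadget. -/
def foldBase (z e : A) (p : Fin 4) : A := ![z, z, e, z] p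

/-- The four foldings of a path: two copies of opposite direction stay, two collapse. -/
def foldPat (z e : A) (p : Fin 4) : Fin 4 → A → A :=
  ![![id, id, fun _ => z, fun _ => z], ![fun _ => z, fun _ => z, id, id],
    ![fun _ => e, id, id, fun _ => e], ![id, fun _ => e, fun _ => e, id]] p

/-- The folding of a gadget. -/
noncomputable def fold (t₀ : D.Gad) (p : Fin 4) : D.Sp A where
  toA _ := foldBase D.z (D.E t₀) p
  toB _ := foldBase D.z (D.E t₀) p
  toG t i a := if t = t₀ then foldPat D.z (D.E t₀) p i a else foldBase D.z (D.E t₀) p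
  h0 := rfl
  h1 t := by
    split_ifs with h
    · subst h; fin_cases p <;> simp [foldPat, foldBase]
    · rfl
  h2 t := by
    split_ifs with h
    · subst h; fin_cases p <;> simp [foldPat]
    · rfl
  h3 t := by
    split_ifs with h
    · subst h; fin_cases p <;> simp [foldPat]
    · rfl
  h4 t := by
    split_ifs with h
    · subst h; fin_cases p <;> simp [foldPat]
    · rfl
  h5 t := by
    split_ifs with h
    · subst h; fin_cases p <;> simp [foldPat, foldBase]
    · rfl

theorem okA_fold (t₀ : D.Gad) (p : Fin 4) : D.OkA (D.fold t₀ p).map :=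
  D.okA_of_spec _ (fun x _ _ _ => (D.Θ x.1.1).refl' _) (fun x _ _ _ => (D.Θ x.1.1).refl' _)
    fun x t i a a' h => by
      simp only [fold]
      split_ifs
      · fin_cases p <;> fin_cases i <;> simp [foldPat, h]
      · exact (D.Θ x.1.1).refl' _

/-- A map on `B` moves the gadgets along. -/
noncomputable def opB (f : B → B) (hf : Preserves D.Ψ f) : D.Sp D.C where
  toA _ := Pt.base (f D.b₀)
  toB b := Pt.base (f b)
  toG t i a := if h : f (D.src t) = f (D.dst t) then Pt.base (f (D.src t))
    else D.cp ⟨(D.E t, f (D.src t), f (D.dst t)), by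
      obtain ⟨c, hc, -, hΨ⟩ := t.2
      exact ⟨c, hc, h, hf _ _ _ hΨ⟩⟩ i a
  h0 := rfl
  h1 t := by
    split_ifs with h
    · rfl
    · exact D.cp_start _
  h2 t := by
    split_ifs with h
    · rfl
    · exact (D.cp_mid _).1
  h3 t := by
    split_ifs with h
    · rfl
    · exact (D.cp_mid _).2.1
  h4 t := by
    split_ifs with h
    · rfl
    · exact (D.cp_mid _).2.2
  h5 t := by
    split_ifs with h
    · rw [h]
    · exact D.cp_stop _

theorem ok_opB (f : B → B) (hf : Preserves D.Ψ f) : D.Ok (D.opB f hf).map := fun p =>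
  (D.opB f hf).respects (σ := D.T p) (fun _ _ _ => (D.T p).refl' _)
    (fun b b' h => Pt.join_inB (hf _ b b' h)) fun t i a a' h => by
      simp only [opB]
      split_ifs
      · exact (D.T p).refl' _
      · exact Pt.join_inG _ i h

/-- The two-valued map of `m k` at `u`. -/
noncomputable def cut (k : β) (u b : B) : A :=
  if D.Ψ (D.m k) u b then D.z else D.g (D.q k)

theorem cut_eq_or (k : β) (u b : B) : D.cut k u b = D.z ∨ D.cut k u b = D.g (D.q k) := by
  unfold cut
  split_ifs <;> simp

theorem cut_cross {k : β} {u b b' : B} (h : D.cut k u b ≠ D.cut k u b') {y : κ}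
    (hy : D.Ψ y b b') : ¬ D.S y (D.m k) := by
  intro hle
  have hbb := (D.hB.le_iff _ _).1 hle hy
  refine h ?_
  unfold cut
  by_cases hb : D.Ψ (D.m k) u b
  · rw [if_pos hb, if_pos ((D.Ψ (D.m k)).trans' hb hbb)]
  · rw [if_neg hb, if_neg fun hb' => hb ((D.Ψ (D.m k)).trans' hb' ((D.Ψ (D.m k)).symm' hbb))]

theorem exists_move {k : β} {u : B} (t : D.Gad)
    (h : D.cut k u (D.src t) ≠ D.cut k u (D.dst t)) :
    ∃ f, Preserves D.Θ f ∧ f D.z = D.z ∧ f (D.E t) = D.g (D.q k) := by
  obtain ⟨⟨e, b, b'⟩, c, hc, hne, hΨ⟩ := t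
  obtain ⟨f, hf, hz, he⟩ := D.hA.move c (D.q k) (D.hq k c (D.cut_cross h hΨ))
  exact ⟨f, hf, hz, (congrArg f hc).symm.trans he⟩

/-- One copy of a crossing gadget carries the translation, the others collapse. -/
noncomputable def killG (k : β) (u : B) (t : D.Gad) (i : Fin 4) (a : A) : A :=
  if h : D.cut k u (D.src t) = D.cut k u (D.dst t) then D.cut k u (D.src t)
  else if D.cut k u (D.src t) = D.z then
    ![(D.exists_move t h).choose a, D.g (D.q k), D.g (D.q k), D.g (D.q k)] i
  else ![D.g (D.q k), (D.exists_move t h).choose a, D.z, D.z] i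

/-- The map forcing `q k` outside `m k`. -/
noncomputable def kill (k : β) (u : B) : D.Sp A where
  toA _ := D.cut k u D.b₀
  toB b := D.cut k u b
  toG := D.killG k u
  h0 := rfl
  h1 t := by
    unfold killG
    split_ifs with h h'
    · rfl
    · simp [(D.exists_move t h).choose_spec.2.1, h']
    · simpa using ((D.cut_eq_or k u (D.src t)).resolve_left h').symm
  h2 t := by
    unfold killG
    split_ifs with h h'
    · rfl
    · simp [(D.exists_move t h).choose_spec.2.2]
    · simp [(D.exists_move t h).choose_spec.2.2]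
  h3 t := by
    unfold killG
    split_ifs with h h'
    · rfl
    · simp
    · simp [(D.exists_move t h).choose_spec.2.1]
  h4 t := by
    unfold killG
    split_ifs <;> simp
  h5 t := by
    unfold killG
    split_ifs with h h'
    · exact h
    · simpa using ((D.cut_eq_or k u (D.dst t)).resolve_left fun h2 => h (h'.trans h2.symm)).symm
    · rcases D.cut_eq_or k u (D.dst t) with h2 | h2
      · simp [h2]
      · exact absurd (((D.cut_eq_or k u (D.src t)).resolve_left h').trans h2.symm) h

theorem okA_kill (k : β) (u : B) : D.OkA (D.kill k u).map := by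
  refine D.okA_of_spec _ (fun p _ _ _ => (D.Θ p.1.1).refl' _) (fun p b b' h => ?_)
    fun p t i a a' h => ?_
  · show D.Θ p.1.1 (D.cut k u b) (D.cut k u b')
    by_cases e : D.cut k u b = D.cut k u b'
    · rw [e]
    · have hR : D.R (D.q k) p.1.1 := p.2.2 k (D.cut_cross e h)
      have hzg := (D.hA.gen _ _).2 hR
      rcases D.cut_eq_or k u b with h1 | h1 <;> rcases D.cut_eq_or k u b' with h2 | h2 <;>
        rw [h1, h2]
      · exact hzg
      · exact (D.Θ p.1.1).symm' hzg
  · show D.Θ p.1.1 (D.killG k u t i a) (D.killG k u t i a')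
    unfold killG
    split_ifs with h1 h2
    · exact (D.Θ p.1.1).refl' _
    · have := (D.exists_move t h1).choose_spec.1 p.1.1 a a' h
      fin_cases i <;> simp [this]
    · have := (D.exists_move t h1).choose_spec.1 p.1.1 a a' h
      fin_cases i <;> simp [this]

end Setting

end Vale.Agent.P183.Glue
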